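import Vale.Agent.P181.BL.Defs

/-!
# P181 line BL, block [B6] (helper742): the heads
-/

set_option autoImplicit false
set_option linter.all false

namespace Vale.Agent.P181.BL.H742

/-- The balanced partition of `H` into `h` parts. -/
theorem sum_bal (H h : ℕ) (hh : 0 < h) :
    ∑ y : Fin h, (H / h + if (y : ℕ) < H % h then 1 else 0) = H := by
  rw [Finset.sum_add_distrib, Finset.sum_const, Finset.card_univ, Fintype.card_fin, smul_eq_mul]
  have h1 : ∑ y : Fin h, (if (y : ℕ) < H % h then 1 else 0) = H % h := by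
    rw [Fin.sum_univ_eq_sum_range (fun i => if i < H % h then 1 else 0) h]
    rw [← Finset.sum_filter]
    have h2 : (Finset.range h).filter (fun i => i < H % h) = Finset.range (H % h) := by
      ext i
      simp only [Finset.mem_filter, Finset.mem_range]
      have := Nat.mod_lt H hh
      omega
    rw [h2]
    simp
  rw [h1]
  exact Nat.div_add_mod H h

/-- The parts lie in the window. -/
theorem bal_mem {a r A H w : ℕ} (hr : 0 < r) (hA1 : 1 ≤ A) (hA : A ≤ a) (hw : a < (w + 1) * (2 * r))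
    (hw16 : 16 ≤ w) (hH : 8 * r * a ≤ H) (i : ℕ) (hi : i ≤ 1) :
    0 < H / A ∧ A ≤ H / (H / A) + i ∧ H / (H / A) + i < A + w := by
  have ha : 1 ≤ a := by omega
  have h0 : 8 * r ≤ H / A := by
    rw [Nat.le_div_iff_mul_le (by omega)]
    calc 8 * r * A ≤ 8 * r * a := Nat.mul_le_mul_left _ hA
      _ ≤ H := hH
  have hpos : 0 < H / A := by omega
  refine ⟨hpos, ?_, ?_⟩
  · have : A ≤ H / (H / A) := by
      rw [Nat.le_div_iff_mul_le hpos]
      calc A * (H / A) = (H / A) * A := mul_comm _ _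
        _ ≤ H := Nat.div_mul_le_self H A
    omega
  · have h2 : H < (H / A + 1) * A := by
      have := Nat.lt_mul_div_succ H (show 0 < A by omega)
      calc H < A * (H / A + 1) := this
        _ = (H / A + 1) * A := mul_comm _ _
    have h3 : H / (H / A) < A + w - 1 := by
      rw [Nat.div_lt_iff_lt_mul hpos]
      generalize H / A = h at *
      -- H < (h+1) A = h A + A ≤ h A + a < h A + (w+1) 2 r ≤ (A + w - 1) h
      have h4 : (h + 1) * A = h * A + A := by ring
      have h5 : (w + 1) * (2 * r) ≤ (w - 1) * h := by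
        calc (w + 1) * (2 * r) ≤ (w - 1) * 4 * (2 * r) := Nat.mul_le_mul_right _ (by omega)
          _ = (w - 1) * (8 * r) := by ring
          _ ≤ (w - 1) * h := Nat.mul_le_mul_left _ h0
      have h6 : (A + w - 1) * h = h * A + (w - 1) * h := by
        have : A + w - 1 = A + (w - 1) := by omega
        rw [this]; ring
      omega
    omega

theorem headR : HeadR := by
  intro a r H hr har hH
  obtain ⟨w, hw1, hw2⟩ : ∃ w, w * (2 * r) ≤ a ∧ a < (w + 1) * (2 * r) :=
    ⟨a / (2 * r), Nat.div_mul_le_self _ _, by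
      have := Nat.lt_mul_div_succ a (show 0 < 2 * r by omega)
      calc a < 2 * r * (a / (2 * r) + 1) := this
        _ = (a / (2 * r) + 1) * (2 * r) := mul_comm _ _⟩
  have hw16 : 16 ≤ w := by
    by_contra hcon
    have h1 : (w + 1) * (2 * r) ≤ 16 * (2 * r) := Nat.mul_le_mul_right _ (by omega)
    omega
  -- the left ends of the windows
  have hA : ∀ l : Fin r, 1 ≤ a / 2 + 1 + l * w ∧ a / 2 + 1 + l * w + w ≤ a + 1 ∧
      a < 2 * (a / 2 + 1 + l * w) := by
    intro l
    have h1 : ((l : ℕ) + 1) * w ≤ r * w := Nat.mul_le_mul_right _ l.2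
    have h2 : ((l : ℕ) + 1) * w = l * w + w := by ring
    have h3 : w * (2 * r) = 2 * (r * w) := by ring
    refine ⟨by omega, by omega, ?_⟩
    have : a < 2 * (a / 2 + 1) := by omega
    nlinarith [Nat.zero_le ((l : ℕ) * w)]
  have hB : ∀ (l : Fin r) (i : ℕ), i ≤ 1 → 0 < H l / (a / 2 + 1 + l * w) ∧
      a / 2 + 1 + l * w ≤ H l / (H l / (a / 2 + 1 + l * w)) + i ∧
      H l / (H l / (a / 2 + 1 + l * w)) + i < a / 2 + 1 + l * w + w := fun l i hi =>
    bal_mem hr (hA l).1 (by have := (hA l).2.1; omega) hw2 hw16 (hH l) i hi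
  have hi : ∀ (P : Prop) [Decidable P], (if P then 1 else 0 : ℕ) ≤ 1 := by
    intro P _; split_ifs <;> omega
  refine ⟨fun l => H l / (a / 2 + 1 + l * w),
    fun x => H x.1 / (H x.1 / (a / 2 + 1 + x.1 * w)) +
      if (x.2 : ℕ) < H x.1 % (H x.1 / (a / 2 + 1 + x.1 * w)) then 1 else 0, ?_, ?_, ?_, ?_, ?_⟩
  · intro x
    have h1 := (hB x.1 _ (hi ((x.2 : ℕ) < H x.1 % (H x.1 / (a / 2 + 1 + x.1 * w))))).2.1
    have h2 := (hA x.1).2.2
    beta_reduce
    omega
  · intro x
    have h1 := (hB x.1 _ (hi ((x.2 : ℕ) < H x.1 % (H x.1 / (a / 2 + 1 + x.1 * w))))).2.2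
    have h2 := (hA x.1).2.1
    beta_reduce
    omega
  · intro l
    exact sum_bal (H l) _ (hB l 0 (by omega)).1
  · intro x y hxy
    have hx := (hB x.1 _ (hi ((x.2 : ℕ) < H x.1 % (H x.1 / (a / 2 + 1 + x.1 * w))))).2
    have hy := (hB y.1 _ (hi ((y.2 : ℕ) < H y.1 % (H y.1 / (a / 2 + 1 + y.1 * w))))).2
    simp only at hxy
    rw [hxy] at hx
    apply Fin.ext
    rcases lt_trichotomy (x.1 : ℕ) (y.1 : ℕ) with hlt | heq | hgt
    · exfalso
      have h1 : ((x.1 : ℕ) + 1) * w ≤ (y.1 : ℕ) * w := Nat.mul_le_mul_right _ hlt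
      have h2 : ((x.1 : ℕ) + 1) * w = x.1 * w + w := by ring
      omega
    · exact heq
    · exfalso
      have h1 : ((y.1 : ℕ) + 1) * w ≤ (x.1 : ℕ) * w := Nat.mul_le_mul_right _ hgt
      have h2 : ((y.1 : ℕ) + 1) * w = y.1 * w + w := by ring
      omega
  · rw [Finset.mul_sum, Finset.mul_sum]
    refine Finset.sum_le_sum fun l _ => ?_
    have h1 : H l / (a / 2 + 1 + l * w) * (a / 2 + 1 + l * w) ≤ H l := Nat.div_mul_le_self _ _
    have h2 := (hA l).2.2
    show a * (H l / (a / 2 + 1 + l * w)) ≤ 2 * H l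
    calc a * (H l / (a / 2 + 1 + l * w))
        ≤ 2 * (a / 2 + 1 + l * w) * (H l / (a / 2 + 1 + l * w)) :=
          Nat.mul_le_mul_right _ h2.le
      _ = 2 * (H l / (a / 2 + 1 + l * w) * (a / 2 + 1 + l * w)) := by ring
      _ ≤ 2 * H l := Nat.mul_le_mul_left _ h1

end Vale.Agent.P181.BL.H742
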