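import Vale.Agent.P181.BL.Defs

/-!
# P181 line BL, block [B5] (helper742): the labels
-/

set_option autoImplicit false
set_option linter.all false

namespace Vale.Agent.P181.BL.H742

/-- The rows `≥ 1` of the label. -/
def lrow {a q r X : ℕ} (m : ℕ) (g : Fin r × (Fin a × Fin q) → Fin X) (l : Fin r)
    (j : Fin a × Fin q) : ℕ :=
  (if (l : ℕ) = 0 then ((j.1 : ℕ) % m) * X else 0) + (g (l, j) : ℕ)

/-- The label. -/
def lbl {a q r X : ℕ} (m : ℕ) (e : Fin a × Fin q → ℕ) (g : Fin r × (Fin a × Fin q) → Fin X)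
    (x : Fin (r + 1) × (Fin a × Fin q)) : ℕ :=
  Fin.cases (motive := fun _ => ℕ) (e x.2 - ∑ l, lrow m g l x.2) (fun l => lrow m g l x.2) x.1

theorem lbl_zero {a q r X : ℕ} (m : ℕ) (e : Fin a × Fin q → ℕ)
    (g : Fin r × (Fin a × Fin q) → Fin X) (j : Fin a × Fin q) :
    lbl m e g (0, j) = e j - ∑ l, lrow m g l j := rfl

theorem lbl_succ {a q r X : ℕ} (m : ℕ) (e : Fin a × Fin q → ℕ)
    (g : Fin r × (Fin a × Fin q) → Fin X) (l : Fin r) (j : Fin a × Fin q) :
    lbl m e g (l.succ, j) = lrow m g l j := rfl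

theorem sum_lrow_le {a q r X : ℕ} (m : ℕ) (hm : 1 ≤ m) (g : Fin r × (Fin a × Fin q) → Fin X)
    (j : Fin a × Fin q) : ∑ l, lrow m g l j ≤ (m + r) * X := by
  unfold lrow
  rw [Finset.sum_add_distrib]
  have h1 : ∑ l : Fin r, (if (l : ℕ) = 0 then ((j.1 : ℕ) % m) * X else 0) ≤ m * X := by
    have hle : ((j.1 : ℕ) % m) * X ≤ m * X :=
      Nat.mul_le_mul_right _ (Nat.mod_lt _ (by omega)).le
    rcases Nat.eq_zero_or_pos r with h0 | h0
    · subst h0; simp
    · have : ∑ l : Fin r, (if (l : ℕ) = 0 then ((j.1 : ℕ) % m) * X else 0) =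
          ((j.1 : ℕ) % m) * X := by
        rw [Finset.sum_eq_single (⟨0, h0⟩ : Fin r)]
        · simp
        · intro b _ hb
          rw [if_neg]
          intro hb0
          exact hb (Fin.ext hb0)
        · intro h; exact absurd (Finset.mem_univ _) h
      rw [this]; exact hle
  have h2 : ∑ l : Fin r, (g (l, j) : ℕ) ≤ r * X := by
    calc ∑ l : Fin r, (g (l, j) : ℕ) ≤ ∑ _l : Fin r, X :=
          Finset.sum_le_sum fun l _ => (g (l, j)).2.le
      _ = r * X := by simp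
  calc _ ≤ m * X + r * X := Nat.add_le_add h1 h2
    _ = (m + r) * X := by ring

theorem sum_lbl {a q r X : ℕ} (m : ℕ) (hm : 1 ≤ m) (e : Fin a × Fin q → ℕ)
    (he : ∀ j, (m + r + 1) * X ≤ e j)
    (g : Fin r × (Fin a × Fin q) → Fin X) (j : Fin a × Fin q) :
    ∑ l, lbl m e g (l, j) = e j := by
  rw [Fin.sum_univ_succ, lbl_zero]
  simp only [lbl_succ]
  have h1 := sum_lrow_le m hm g j
  have h2 := he j
  have h3 : (m + r + 1) * X = (m + r) * X + X := by ring
  omega

theorem lbl_inj {a q r X : ℕ} (m : ℕ) (e : Fin a × Fin q → ℕ) :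
    Function.Injective (fun g : Fin r × (Fin a × Fin q) → Fin X => lbl m e g) := by
  intro g g' h
  funext x
  obtain ⟨l, j⟩ := x
  have h1 := congrFun h (l.succ, j)
  simp only [lbl_succ, lrow] at h1
  apply Fin.ext
  omega

theorem lbl_ne {a q r X : ℕ} (m : ℕ) (hm : 1 ≤ m) (hr : 1 ≤ r) (e : Fin a × Fin q → ℕ)
    (g g' : Fin r × (Fin a × Fin q) → Fin X) (j j' : Fin a × Fin q)
    (h1 : (j.1 : ℕ) / m = (j'.1 : ℕ) / m) (h2 : j.2 = j'.2) (h3 : j ≠ j') :
    ∃ l, lbl m e g (l, j) ≠ lbl m e g' (l, j') := by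
  refine ⟨(⟨0, hr⟩ : Fin r).succ, ?_⟩
  rw [lbl_succ, lbl_succ]
  intro hcon
  simp only [lrow, if_true] at hcon
  have hg := (g (⟨0, hr⟩, j)).2
  have hg' := (g' (⟨0, hr⟩, j')).2
  have hX : 0 < X := by omega
  have h4 : (j.1 : ℕ) % m = (j'.1 : ℕ) % m := by
    have h5 : (((j.1 : ℕ) % m) * X + (g (⟨0, hr⟩, j) : ℕ)) / X = (j.1 : ℕ) % m := by
      rw [mul_comm, Nat.mul_add_div hX, Nat.div_eq_of_lt hg, add_zero]
    have h6 : (((j'.1 : ℕ) % m) * X + (g' (⟨0, hr⟩, j') : ℕ)) / X = (j'.1 : ℕ) % m := by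
      rw [mul_comm, Nat.mul_add_div hX, Nat.div_eq_of_lt hg', add_zero]
    rw [← h5, ← h6, hcon]
  apply h3
  apply Prod.ext _ h2
  apply Fin.ext
  rw [← Nat.div_add_mod (j.1 : ℕ) m, ← Nat.div_add_mod (j'.1 : ℕ) m, h1, h4]

theorem keyR : KeyR := by
  classical
  intro a q m X r e ha hq hm hX hr he
  set W : (Fin r × (Fin a × Fin q) → Fin X) → (Fin (r + 1) × (Fin a × Fin q) → ℕ) :=
    fun g => lbl m e g with hW
  set φ : (Fin r × (Fin a × Fin q) → Fin X) → (Fin (r + 1) → ℕ) :=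
    fun g l => ∑ j, lbl m e g (l, j) with hφ
  set T : Finset (Fin (r + 1) → ℕ) :=
    Fintype.piFinset (fun _ => Finset.range (∑ j, e j + 1)) with hT
  have hmaps : ∀ g ∈ (Finset.univ : Finset (Fin r × (Fin a × Fin q) → Fin X)), φ g ∈ T := by
    intro g _
    rw [hT, Fintype.mem_piFinset]
    intro l
    rw [Finset.mem_range, Nat.lt_succ_iff]
    refine Finset.sum_le_sum fun j _ => ?_
    rw [← sum_lbl m hm e he g j]
    exact Finset.single_le_sum (f := fun l => lbl m e g (l, j)) (fun _ _ => Nat.zero_le _)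
      (Finset.mem_univ l)
  have hTcard : T.card = (∑ j, e j + 1) ^ (r + 1) := by
    rw [hT, Fintype.card_piFinset]
    simp
  have hTne : T.Nonempty := by
    rw [← Finset.card_pos, hTcard]
    positivity
  obtain ⟨ms, hms, hmax⟩ := Finset.exists_max_image T
    (fun b => (Finset.univ.filter fun g => φ g = b).card) hTne
  refine ⟨ms, (Finset.univ.filter fun g => φ g = ms).image W, ?_, ?_, ?_, ?_⟩
  · intro v hv j
    obtain ⟨g, _, rfl⟩ := Finset.mem_image.1 hv
    exact sum_lbl m hm e he g j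
  · intro v hv l
    obtain ⟨g, hg, rfl⟩ := Finset.mem_image.1 hv
    have := (Finset.mem_filter.1 hg).2
    exact congrFun this l
  · intro v hv v' hv' j j' h1 h2 h3
    obtain ⟨g, _, rfl⟩ := Finset.mem_image.1 hv
    obtain ⟨g', _, rfl⟩ := Finset.mem_image.1 hv'
    exact lbl_ne m hm hr e g g' j j' h1 h2 h3
  · rw [Finset.card_image_of_injective _ (lbl_inj m e)]
    have h1 : (Finset.univ : Finset (Fin r × (Fin a × Fin q) → Fin X)).card =
        X ^ (r * (q * a)) := by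
      rw [Finset.card_univ, Fintype.card_fun, Fintype.card_prod, Fintype.card_prod]
      simp only [Fintype.card_fin]
      rw [mul_comm a q]
    rw [← h1, ← hTcard, Finset.card_eq_sum_card_fiberwise hmaps]
    calc _ ≤ T.card • (Finset.univ.filter fun g => φ g = ms).card :=
          Finset.sum_le_card_nsmul _ _ _ hmax
      _ = _ := by rw [smul_eq_mul]

end Vale.Agent.P181.BL.H742
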